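import Vale.Agent.P107.Bdl.B4
import Vale.Agent.P107.Bdl.B5

/-!
Every smooth admissible datum generates a global classical solution of the three-dimensional
one-species relativistic Vlasov-Maxwell system.
-/

open MeasureTheory Set

namespace Vale.Agent.P107.RVM

theorem _root_.Vale.Agent.Results.P107.GlobalExistence.result
    {f₀ : V3 → V3 → ℝ} {E₀ B₀ : V3 → V3} (h : IsAdmissible f₀ E₀ B₀) :
    ∃ (f : ℝ → V3 → V3 → ℝ) (E B : ℝ → V3 → V3),
      (∀ T, 0 < T → IsClassicalSolution T f E B) ∧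
      (∀ x v, f 0 x v = f₀ x v) ∧ (∀ x, E 0 x = E₀ x) ∧ (∀ x, B 0 x = B₀ x) :=
  LE.rvm_global_of
    (fun hD => LE.global_existence (fun _ _ _ _ hT hs => momentum_bounded hT hs) hD) h

end Vale.Agent.P107.RVM
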